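import Vale.Agent.P158.Middle
import Vale.Agent.P158.Chain.Defs

/-!
# P158, good boxes: geodesics in the middle of a box are short

The middle of `sq N` is covered by a bounded number of squares of radius `N / 16`.
-/

open MeasureTheory Filter Topology
open scoped ENNReal

namespace Vale.P158.Chain

noncomputable section

/-- The centres of the covering squares. -/
def centres (R : ℕ) : Finset Z2 :=
  (Finset.Icc (-11 : ℤ) 11 ×ˢ Finset.Icc (-11 : ℤ) 11).image fun ab => (ab.1 * R, ab.2 * R)

lemma card_centres (R : ℕ) : (centres R).card ≤ 529 :=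
  Finset.card_image_le.trans (by simp)

lemma supDist_centre {R : ℕ} {x : Z2} (hx : x ∈ centres R) : supDist 0 x ≤ 11 * R := by
  obtain ⟨⟨a, b⟩, hab, rfl⟩ := Finset.mem_image.1 hx
  simp only [Finset.mem_product, Finset.mem_Icc] at hab
  obtain ⟨⟨a0, a1⟩, b0, b1⟩ := hab
  have h := Nat.cast_nonneg (α := ℤ) R
  have := mul_le_mul_of_nonneg_right a0 h
  have := mul_le_mul_of_nonneg_right a1 h
  have := mul_le_mul_of_nonneg_right b0 h
  have := mul_le_mul_of_nonneg_right b1 h
  simp only [supDist, Prod.fst_zero, Prod.snd_zero]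
  omega

lemma exists_centre {R : ℕ} (hR : 1 ≤ R) {v : Z2} (hv : supDist 0 v ≤ 11 * R) :
    ∃ x ∈ centres R, supDist x v ≤ R := by
  have key : ∀ z : ℤ, z.natAbs ≤ 11 * R → ∃ a ∈ Finset.Icc (-11 : ℤ) 11,
      (z - a * R).natAbs ≤ R := by
    intro z hz
    have hpos : (0 : ℤ) < R := by exact_mod_cast hR
    refine ⟨z / R, Finset.mem_Icc.2 ⟨Int.le_ediv_of_mul_le hpos (by omega),
      Int.ediv_le_of_le_mul hpos (by omega)⟩, ?_⟩
    have h1 := Int.emod_add_mul_ediv z R
    have h2 := Int.emod_nonneg z hpos.ne'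
    have h3 := Int.emod_lt_of_pos z hpos
    rw [mul_comm (z / _)]
    omega
  simp only [supDist, Prod.fst_zero, Prod.snd_zero, sub_zero] at hv
  obtain ⟨a, ha, ha'⟩ := key v.1 (by omega)
  obtain ⟨b, hb, hb'⟩ := key v.2 (by omega)
  refine ⟨(a * R, b * R), Finset.mem_image.2 ⟨(a, b), Finset.mem_product.2 ⟨ha, hb⟩, rfl⟩, ?_⟩
  simp only [supDist]
  omega

open scoped Classical in
/-- Geodesics between boundary points of `sq N` have at most `L` edges in the middle. -/
def ShortMid (t : Sym2 Z2 → ℝ) (N L : ℕ) : Prop :=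
  ∀ (i j : ℕ) (p : lattice.Walk ((loop N).x i) ((loop N).x j)), IsGeoU t (box N) p →
    (p.edges.toFinset.filter fun f => ∀ v ∈ f, Mid N v).card ≤ L

open scoped Classical in
lemma mid_subset {u v : Z2} (p : lattice.Walk u v) {N R : ℕ} (hR : 1 ≤ R) (hN : N / 2 ≤ 11 * R) :
    (p.edges.toFinset.filter fun f => ∀ w ∈ f, Mid N w) ⊆
      (centres R).biUnion fun x => midEdges x R p := by
  intro f hf
  rw [Finset.mem_filter] at hf
  induction f using Sym2.ind with
  | _ a b =>
    have ha : supDist 0 a ≤ N / 2 := hf.2 a (Sym2.mem_mk_left a b)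
    have hex := exists_centre hR (ha.trans hN)
    rw [Finset.mem_biUnion]
    refine Exists.elim hex fun x hx => ⟨x, hx.1, ?_⟩
    rw [midEdges, Finset.mem_filter]
    exact ⟨hf.1, a, Sym2.mem_mk_left a b, hx.2⟩

open scoped Classical in
/-- With high probability the geodesics of the box are short in the middle. -/
theorem midLenWhp (μ : Measure ℝ) [IsProbabilityMeasure μ] [NullSingletonClass μ]
    (hμ : ∀ᵐ s ∂μ, 0 ≤ s) :
    ∃ k : ℕ, ∀ η : ℝ≥0∞, 0 < η → ∀ᶠ N in atTop,
      iidLaw (Sym2 Z2) μ {t | ¬ShortMid t N (k * N)} ≤ η := by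
  obtain ⟨C, δ, hδ, h⟩ := exists_middle_length μ hμ
  refine ⟨529 * C, fun η hη => ?_⟩
  have hdiv : Tendsto (fun N : ℕ => N / 16) atTop atTop :=
    tendsto_atTop.2 fun b => (eventually_ge_atTop (16 * b)).mono fun N hN => by omega
  have hlim : Tendsto (fun N : ℕ => (529 : ℝ≥0∞) * δ (N / 16)) atTop (𝓝 0) := by
    simpa using ENNReal.Tendsto.const_mul (hδ.comp hdiv) (Or.inr (by simp))
  filter_upwards [hlim.eventually (eventually_le_nhds hη), eventually_ge_atTop 64] with N hN hN64
  set R := N / 16 with hR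
  refine le_trans ?_ hN
  calc iidLaw (Sym2 Z2) μ {t | ¬ShortMid t N (529 * C * N)}
      ≤ iidLaw (Sym2 Z2) μ (⋃ x ∈ centres R, middleLong x R (C * R)) := by
        refine measure_mono fun t ht => ?_
        simp only [ShortMid, not_forall, not_le, Set.mem_ofPred_eq] at ht
        obtain ⟨i, j, p, hp, hbig⟩ := ht
        by_contra hno
        simp only [Set.mem_iUnion, not_exists] at hno
        have hsmall : ∀ x ∈ centres R, (midEdges x R p).card ≤ C * R := fun x hx => by
          by_contra! hlt
          refine hno x hx ⟨box N, _, _, p, fun z hz => ?_, hp, Or.inr hlt⟩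
          have := supDist_centre hx
          have := supDist_triangle 0 x z
          have h0 : supDist 0 z ≤ N := by omega
          simp only [supDist, Prod.fst_zero, Prod.snd_zero, sub_zero] at h0
          simp only [box, sq, Set.mem_ofPred_eq, Vale.Agent.P158.Crossing.Rect.Mem]
          omega
        have hsub := mid_subset p (show 1 ≤ R by omega) (show N / 2 ≤ 11 * R by omega)
        have h1 := (Finset.card_le_card hsub).trans
          (Finset.card_biUnion_le_card_mul _ _ _ hsmall)
        have h2 := card_centres R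
        have : (centres R).card * (C * R) ≤ 529 * C * N := by
          rw [mul_assoc]
          exact Nat.mul_le_mul h2 (Nat.mul_le_mul_left _ (Nat.div_le_self _ _))
        omega
    _ ≤ ∑ x ∈ centres R, iidLaw (Sym2 Z2) μ (middleLong x R (C * R)) :=
        measure_biUnion_finset_le _ _
    _ ≤ ∑ _x ∈ centres R, δ R := Finset.sum_le_sum fun x _ => h x R
    _ ≤ 529 * δ R := by
        rw [Finset.sum_const, nsmul_eq_mul]
        exact mul_le_mul_left (by exact_mod_cast card_centres R) _

end

end Vale.P158.Chain
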