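import Vale.Agent.P158.GoodBox
import Vale.Agent.P158.Geom.MidLen

/-!
# P158: good boxes are likely

The allowed cells are the off-diagonal blocks of the cuts.
-/

open MeasureTheory Filter Topology
open scoped ENNReal

namespace Vale.P158.Chain

open Vale.Agent.P158.Crossing (Rect)

noncomputable section

lemma sq_eq (N : ℕ) : sq N = sqRect 0 (N + 1) := by
  simp only [sq, sqRect, Rect.mk.injEq, Prod.fst_zero, Prod.snd_zero]
  omega

lemma avoidsMid_of_lt {t : Sym2 Z2 → ℝ} {N i j : ℕ}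
    (h : ∀ p : lattice.Walk ((loop N).x i) ((loop N).x j), IsGeoU t (box N) p →
      ∀ v ∈ p.support, N + 1 < 2 * supDist 0 v) : AvoidsMid t N i j := by
  intro p hp v hv hm
  have h1 := h p hp v hv
  simp only [Mid] at hm
  omega

/-- The deterministic part: outside the exceptional events the box is good. -/
theorem goodBox_of_not_bad {t : Sym2 Z2 → ℝ} (ht : ∀ e, 0 ≤ t e) {L a : ℝ} (hL : 0 ≤ L)
    (ha : 0 < a) {k : ℕ} (hk : 8 ≤ k) (hka : 341 * L < k * a) {N : ℕ}
    (hR : 10 ≤ boxR k (N + 1)) (hgood : t ∉ boxBad L a 0 k (N + 1) (boxR k (N + 1)))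
    {kk : ℕ} (hshort : ShortMid t N (kk * N))
    (hkk : 2 * ((8 * k : ℕ) : ℝ) ^ 2 * (L * ((1550 + 124000 * k) * 2)) ≤ kk) :
    GoodBox t N ((kk * N : ℕ) : ℝ) (kk * N) := by
  classical
  obtain ⟨hn1, hn2⟩ := boxR_spec (n := N + 1) (show 0 < k by omega)
  obtain ⟨o, g, hmono, hg0, hgK, hT, hvis⟩ :=
    good_box (c := (0 : Z2)) ht hL ha hk hka hR hn1 hn2 hgood
  rw [← sq_eq] at hgK hT hvis
  change ∀ m m', passU t (box N) ((loop N).x (o + g m)) ((loop N).x (o + g m')) ≤ _ at hT
  change ∀ m < 8 * k, ∀ i j, g m ≤ i → i ≤ g (m + 1) → g m ≤ j → j ≤ g (m + 1) →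
    ∀ p : lattice.Walk ((loop N).x (o + i)) ((loop N).x (o + j)), IsGeoU t (box N) p →
      ∀ v ∈ p.support, N + 1 < 2 * supDist 0 v at hvis
  have hn : (loop N).n = g (8 * k) := hgK.symm
  set sh : ℕ × ℕ → ℕ × ℕ := fun c => (o + c.1, o + c.2)
  have hmem : ∀ i j, i ∈ Finset.Ico o (o + (loop N).n) → j ∈ Finset.Ico o (o + (loop N).n) →
      i < j → (i - o, j - o) ∈ cells 0 (g (8 * k)) := fun i j hi hj hij => by
    simp only [Finset.mem_Ico] at hi hj
    simp only [cells, Finset.mem_filter, Finset.mem_product, Finset.mem_Ico]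
    omega
  refine ⟨o, (offDiag g (8 * k)).image sh, ?_, ?_, ?_, ?_, fun i j p hp => hshort i j p hp⟩
  · intro c hc
    obtain ⟨c', hc', rfl⟩ := Finset.mem_image.1 hc
    have h := offDiag_subset hmono hc'
    simp only [cells, Finset.mem_filter, Finset.mem_product, Finset.mem_Ico] at h ⊢
    simp only [sh]
    omega
  · have hinj : ∀ x ∈ offDiag g (8 * k), ∀ y ∈ offDiag g (8 * k), sh x = sh y → x = y := by
      intro x _ y _ h
      simp only [sh, Prod.mk.injEq, Nat.add_left_cancel_iff] at h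
      exact Prod.ext h.1 h.2
    rw [Finset.sum_image hinj]
    simp only [sh, ← mixed_shift (pass t N) o]
    refine (sum_offDiag_le hmono fun i j => passU_nonneg ht _ _ _).trans ?_
    set W := L * ((1550 + 124000 * (k : ℝ)) * (boxR k (N + 1) : ℕ))
    set s := (Finset.range (8 * k) ×ˢ Finset.range (8 * k)).filter fun q => q.1 < q.2
    have hcard : (s.card : ℝ) ≤ ((8 * k : ℕ) : ℝ) ^ 2 := by
      have h := Finset.card_filter_le (Finset.range (8 * k) ×ˢ Finset.range (8 * k))
        fun q : ℕ × ℕ => q.1 < q.2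
      rw [Finset.card_product, Finset.card_range] at h
      rw [pow_two]
      exact_mod_cast h
    have hR2 : ((boxR k (N + 1) : ℕ) : ℝ) ≤ 2 * N := by
      have h1 : (N + 1) / (100 * k) * 100 ≤ N + 1 :=
        le_trans (Nat.mul_le_mul_left _ (show 100 ≤ 100 * k by omega)) (Nat.div_mul_le_self _ _)
      have h : boxR k (N + 1) ≤ 2 * N := by simp only [boxR] at hR ⊢; omega
      exact_mod_cast h
    calc _ ≤ ∑ _q ∈ s, (W + W) := Finset.sum_le_sum fun q _ => add_le_add (hT _ _) (hT _ _)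
      _ = (s.card : ℝ) * (2 * W) := by rw [Finset.sum_const, nsmul_eq_mul]; ring
      _ ≤ ((8 * k : ℕ) : ℝ) ^ 2 * (2 * (L * ((1550 + 124000 * (k : ℝ)) * (2 * N)))) := by
          refine mul_le_mul hcard ?_ (mul_nonneg zero_le_two (mul_nonneg hL (by positivity)))
            (sq_nonneg _)
          refine mul_le_mul_of_nonneg_left ?_ zero_le_two
          exact mul_le_mul_of_nonneg_left
            (mul_le_mul_of_nonneg_left hR2 (by positivity)) hL
      _ ≤ _ := by
          have := mul_le_mul_of_nonneg_right hkk (Nat.cast_nonneg (α := ℝ) N)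
          push_cast at this ⊢
          linarith
  · intro c hc hA
    simp only [cells, Finset.mem_filter, Finset.mem_product] at hc
    have hc' := hmem c.1 c.2 hc.1.1 hc.1.2 hc.2
    obtain ⟨i, hi⟩ := Nat.exists_eq_add_of_le (Finset.mem_Ico.1 hc.1.1).1
    obtain ⟨j, hj⟩ := Nat.exists_eq_add_of_le (Finset.mem_Ico.1 hc.1.2).1
    rw [hi, hj, Nat.add_sub_cancel_left, Nat.add_sub_cancel_left] at hc'
    obtain ⟨m, hm, h1, h2, h3⟩ := diag_corners hmono hg0 hc' fun h =>
      hA (Finset.mem_image.2 ⟨_, h, Prod.ext hi.symm hj.symm⟩)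
    dsimp only at h1 h2 h3
    rw [hi, hj]
    simp only [Nat.add_assoc]
    exact ⟨avoidsMid_of_lt (hvis m hm i j h1 (by omega) (by omega) (by omega)),
      avoidsMid_of_lt (hvis m hm (i + 1) (j + 1) (by omega) (by omega) (by omega) (by omega)),
      avoidsMid_of_lt (hvis m hm i (j + 1) h1 (by omega) (by omega) (by omega)),
      avoidsMid_of_lt (hvis m hm (i + 1) j (by omega) (by omega) (by omega) (by omega))⟩
  · intro i hi
    obtain ⟨i', rfl⟩ := Nat.exists_eq_add_of_le (Finset.mem_Ico.1 hi).1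
    obtain ⟨m, hm, h1, h2⟩ := exists_block hg0
      (show i' < g (8 * k) by rw [← hn]; simp only [Finset.mem_Ico] at hi; omega)
    rw [Nat.add_assoc]
    exact avoidsMid_of_lt (hvis m hm i' (i' + 1) h1 h2.le (by omega) (by omega))

/-- Good boxes are likely. -/
theorem goodWhp (μ : Measure ℝ) [IsProbabilityMeasure μ] [NullSingletonClass μ]
    (hμ : ∀ᵐ s ∂μ, 0 ≤ s) : GoodWhp μ := by
  obtain ⟨L, a, k, hL, ha, hk, hka, δ, hδ, hbad⟩ := exists_goodBox μ hμ
  obtain ⟨k₁, hk₁⟩ := midLenWhp μ hμ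
  obtain ⟨k₂, hk₂⟩ := exists_nat_ge (2 * ((8 * k : ℕ) : ℝ) ^ 2 *
    (L * ((1550 + 124000 * k) * 2)))
  refine ⟨max k₁ k₂, fun η hη => ?_⟩
  have hη2 : 0 < η / 2 := ENNReal.div_pos hη.ne' (by simp)
  have hδ' : ∀ᶠ N in atTop, δ (N + 1) ≤ η / 2 :=
    (hδ.comp (tendsto_add_atTop_nat 1)).eventually (eventually_le_nhds hη2)
  filter_upwards [hk₁ _ hη2, hδ', eventually_ge_atTop (100 * k * 10)] with N hN hNδ hN10
  have hR : 10 ≤ boxR k (N + 1) := by
    have h : 10 ≤ (N + 1) / (100 * k) := by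
      rw [Nat.le_div_iff_mul_le (show 0 < 100 * k by omega), mul_comm]
      omega
    simp only [boxR]
    omega
  calc iidLaw (Sym2 Z2) μ {t | ¬GoodBox t N ((max k₁ k₂ * N : ℕ) : ℝ) (max k₁ k₂ * N)}
      ≤ iidLaw (Sym2 Z2) μ ({t | ¬ShortMid t N (k₁ * N)} ∪
          boxBad L a 0 k (N + 1) (boxR k (N + 1))) := by
        refine measure_mono_ae ?_
        filter_upwards [ae_pos μ hμ] with t ht hnot
        by_contra hout
        have hout' : ¬(¬ShortMid t N (k₁ * N) ∨
            t ∈ boxBad L a 0 k (N + 1) (boxR k (N + 1))) := hout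
        simp only [not_or, not_not] at hout'
        refine hnot (goodBox_of_not_bad (fun e => (ht e).le) hL ha hk hka hR hout'.2
          (fun i j p hp => (hout'.1 i j p hp).trans ?_) (hk₂.trans ?_))
        · exact Nat.mul_le_mul_right N (le_max_left _ _)
        · exact Nat.cast_le.2 (le_max_right _ _)
    _ ≤ η / 2 + η / 2 := (measure_union_le _ _).trans (add_le_add hN ((hbad 0 _).trans hNδ))
    _ = η := ENNReal.add_halves η

end

end Vale.P158.Chain
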